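import Vale.Agent.P186.Word

namespace Vale.Agent.Results.P186.NotResFinite

open Vale.Agent.P194

theorem result : ∃ (G : Type) (_ : Group G) (X : Set G),
    X.Finite ∧ Subgroup.closure X = ⊤ ∧
    (∃ δ : ℕ, ∀ (x y z : G) (p : (SimpleGraph.mulCayley X).Walk x y)
      (q : (SimpleGraph.mulCayley X).Walk y z) (r : (SimpleGraph.mulCayley X).Walk z x),
      p.length = (SimpleGraph.mulCayley X).dist x y →
      q.length = (SimpleGraph.mulCayley X).dist y z →
      r.length = (SimpleGraph.mulCayley X).dist z x →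
      ∀ v ∈ p.support, ∃ u, (u ∈ q.support ∨ u ∈ r.support) ∧
        (SimpleGraph.mulCayley X).dist v u ≤ δ) ∧
    ¬ Group.ResiduallyFinite G := by
  obtain ⟨K, _, _, _, ω, S, V, _, _, _, _, Step, -, -, H, Z, Θ, η, a1, a2, a3⟩ :=
    core 2 150 (by norm_num)
  refine ⟨Gp Step, inferInstance, Set.range fun s => gen Step (s, true), Set.finite_range _, ?_,
    thin_cayley H le_rfl rfl, not_rf Z Θ η a1 a2 a3⟩
  rw [eq_top_iff]
  intro z _
  obtain ⟨u, rfl⟩ := gen_surj z
  refine Subgroup.list_prod_mem _ fun a ha => ?_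
  obtain ⟨⟨s, b⟩, -, rfl⟩ := List.mem_map.1 ha
  cases b
  · rw [show gen Step (s, false) = (gen Step (s, true))⁻¹ from gen_linv (s, true)]
    exact Subgroup.inv_mem _ (Subgroup.subset_closure ⟨s, rfl⟩)
  · exact Subgroup.subset_closure ⟨s, rfl⟩

end Vale.Agent.Results.P186.NotResFinite
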